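import Mathlib

/-!
# P330: generalized circuits, a trivial regime of the parameter `δ`

For every generalized circuit and every `ε > 0`, one of three explicit assignments that do not look
at the wiring of the circuit (all zero; all one half; the parameter `α` on the output node of every
`Constant(α)` gate and zero elsewhere) `ε`-satisfies at least one third of the gates.
-/

namespace Vale.Agent.Results.P330.TrivialThird

/-- The nine kinds of gates; `const` and `scale` carry their rational parameter. -/
inductive Kind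
  | const (α : ℚ)
  | scale (α : ℚ)
  | copy
  | add
  | sub
  | less
  | not
  | or
  | and

/-- A gate on the node set `V`: its kind, its output node `z` and its input nodes `a`, `b`
(`b` is ignored by gates with one input, `a` and `b` by `Constant` gates). -/
structure Gate (V : Type) where
  kind : Kind
  z : V
  a : V
  b : V

/-- A generalized circuit with node set `V` and gates indexed by `T`: every node is the output of
at most one gate, the parameters lie in `[0,1]`; cycles are allowed. -/
structure GCircuit (V T : Type) where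
  gate : T → Gate V
  out_inj : Function.Injective fun t => (gate t).z
  const_mem : ∀ t α, (gate t).kind = Kind.const α → 0 ≤ α ∧ α ≤ 1
  scale_mem : ∀ t α, (gate t).kind = Kind.scale α → 0 ≤ α ∧ α ≤ 1

/-- The gate `g` is `ε`-satisfied by the assignment `x`. -/
def Sat {V : Type} (ε : ℝ) (x : V → ℚ) (g : Gate V) : Prop :=
  match g.kind with
  | Kind.const α => |(x g.z : ℝ) - α| ≤ ε
  | Kind.scale α => |(x g.z : ℝ) - α * x g.a| ≤ ε
  | Kind.copy => |(x g.z : ℝ) - x g.a| ≤ ε
  | Kind.add => |(x g.z : ℝ) - min ((x g.a : ℝ) + x g.b) 1| ≤ ε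
  | Kind.sub => |(x g.z : ℝ) - max ((x g.a : ℝ) - x g.b) 0| ≤ ε
  | Kind.less => ((x g.a : ℝ) < x g.b - ε → 1 - ε ≤ (x g.z : ℝ)) ∧
      ((x g.a : ℝ) > x g.b + ε → (x g.z : ℝ) ≤ ε)
  | Kind.not => ((x g.a : ℝ) ≤ ε → 1 - ε ≤ (x g.z : ℝ)) ∧
      (1 - ε ≤ (x g.a : ℝ) → (x g.z : ℝ) ≤ ε)
  | Kind.or => ((1 - ε ≤ (x g.a : ℝ) ∨ 1 - ε ≤ (x g.b : ℝ)) → 1 - ε ≤ (x g.z : ℝ)) ∧
      (((x g.a : ℝ) ≤ ε ∧ (x g.b : ℝ) ≤ ε) → (x g.z : ℝ) ≤ ε)
  | Kind.and => ((1 - ε ≤ (x g.a : ℝ) ∧ 1 - ε ≤ (x g.b : ℝ)) → 1 - ε ≤ (x g.z : ℝ)) ∧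
      (((x g.a : ℝ) ≤ ε ∨ (x g.b : ℝ) ≤ ε) → (x g.z : ℝ) ≤ ε)

/-- The number of gates of `G` that are `ε`-satisfied by `x`. -/
noncomputable def numSat {V T : Type} [Fintype T] (G : GCircuit V T) (ε : ℝ) (x : V → ℚ) : ℕ :=
  Nat.card {t : T // Sat ε x (G.gate t)}

/-- The assignment that is `α` on the output node of every `Constant(α)` gate, `0` elsewhere. -/
noncomputable def constA {V T : Type} (G : GCircuit V T) (v : V) : ℚ :=
  open Classical in
  if h : ∃ p : T × ℚ, (G.gate p.1).z = v ∧ (G.gate p.1).kind = Kind.const p.2 then h.choose.2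
  else 0

theorem constA_out {V T : Type} (G : GCircuit V T) (t : T) (α : ℚ)
    (h : (G.gate t).kind = Kind.const α) : constA G (G.gate t).z = α := by
  classical
  have hex : ∃ p : T × ℚ, (G.gate p.1).z = (G.gate t).z ∧ (G.gate p.1).kind = Kind.const p.2 :=
    ⟨(t, α), rfl, h⟩
  unfold constA
  rw [dif_pos hex]
  have h1 := hex.choose_spec
  have h2 : hex.choose.1 = t := G.out_inj h1.1
  have h3 := h1.2
  rw [h2, h] at h3
  injection h3 with h4
  exact h4.symm

theorem constA_mem {V T : Type} (G : GCircuit V T) (v : V) : 0 ≤ constA G v ∧ constA G v ≤ 1 := by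
  classical
  unfold constA
  split_ifs with h
  · exact G.const_mem _ _ h.choose_spec.2
  · exact ⟨le_refl _, zero_le_one⟩

/-- For every generalized circuit `G` and every `ε > 0`, one of the three assignments `0`, `1/2`,
`constA G` (all with values in `[0,1]`) `ε`-satisfies at least one third of the gates; hence it
`ε`-satisfies at least `(1 - δ) |T|` gates whenever `δ ≥ 2/3`. -/
theorem result {V T : Type} [Fintype T] (G : GCircuit V T) (ε : ℝ) (hε : 0 < ε) :
    ∃ x : V → ℚ, (x = (fun _ => 0) ∨ x = (fun _ => 1 / 2) ∨ x = constA G) ∧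
      (∀ v, 0 ≤ x v ∧ x v ≤ 1) ∧ Fintype.card T ≤ 3 * numSat G ε x ∧
      ∀ δ : ℝ, 2 / 3 ≤ δ → (1 - δ) * (Fintype.card T : ℝ) ≤ (numSat G ε x : ℝ) := by
  classical
  -- every gate is satisfied by one of the three assignments
  have hcover : ∀ t : T, Sat ε (fun _ => (0 : ℚ)) (G.gate t) ∨
      Sat ε (fun _ => (1 / 2 : ℚ)) (G.gate t) ∨ Sat ε (constA G) (G.gate t) := by
    intro t
    rcases hk : (G.gate t).kind with α | α | _ | _ | _ | _ | _ | _ | _
    · right; right
      unfold Sat
      rw [hk]
      simp only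
      rw [constA_out G t α hk]
      simp [hε.le]
    · left
      unfold Sat
      rw [hk]
      simp [hε.le]
    · left
      unfold Sat
      rw [hk]
      simp [hε.le]
    · left
      unfold Sat
      rw [hk]
      simp [hε.le]
    · left
      unfold Sat
      rw [hk]
      simp [hε.le]
    · left
      unfold Sat
      rw [hk]
      simp only
      push_cast
      constructor <;> intro h <;> linarith
    · right; left
      unfold Sat
      rw [hk]
      simp only
      push_cast
      constructor <;> intro h <;> linarith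
    · left
      unfold Sat
      rw [hk]
      simp only
      push_cast
      refine ⟨fun h => ?_, fun _ => hε.le⟩
      rcases h with h | h <;> exact h
    · left
      unfold Sat
      rw [hk]
      simp only
      push_cast
      exact ⟨fun h => h.1, fun _ => hε.le⟩
  have hcard : Fintype.card T ≤ numSat G ε (fun _ => (0 : ℚ)) + numSat G ε (fun _ => (1 / 2 : ℚ))
      + numSat G ε (constA G) := by
    unfold numSat
    simp only [Nat.card_eq_fintype_card, Fintype.card_subtype]
    calc Fintype.card T = (Finset.univ : Finset T).card := rfl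
      _ ≤ ((Finset.univ.filter fun t => Sat ε (fun _ => (0 : ℚ)) (G.gate t)) ∪
          (Finset.univ.filter fun t => Sat ε (fun _ => (1 / 2 : ℚ)) (G.gate t)) ∪
          (Finset.univ.filter fun t => Sat ε (constA G) (G.gate t))).card := by
            apply Finset.card_le_card
            intro t _
            simp only [Finset.mem_union, Finset.mem_filter, Finset.mem_univ, true_and]
            rcases hcover t with h | h | h
            · exact Or.inl (Or.inl h)
            · exact Or.inl (Or.inr h)
            · exact Or.inr h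
      _ ≤ _ := by
            refine (Finset.card_union_le _ _).trans ?_
            exact Nat.add_le_add_right (Finset.card_union_le _ _) _
  have hfin : ∀ x : V → ℚ, Fintype.card T ≤ 3 * numSat G ε x →
      ∀ δ : ℝ, 2 / 3 ≤ δ → (1 - δ) * (Fintype.card T : ℝ) ≤ (numSat G ε x : ℝ) := by
    intro x hx δ hδ
    have h1 : (Fintype.card T : ℝ) ≤ 3 * (numSat G ε x : ℝ) := by exact_mod_cast hx
    have h2 : (0 : ℝ) ≤ (Fintype.card T : ℝ) := Nat.cast_nonneg _
    nlinarith
  by_cases h0 : Fintype.card T ≤ 3 * numSat G ε (fun _ => (0 : ℚ))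
  · exact ⟨_, Or.inl rfl, fun _ => ⟨le_refl _, zero_le_one⟩, h0, hfin _ h0⟩
  by_cases h1 : Fintype.card T ≤ 3 * numSat G ε (fun _ => (1 / 2 : ℚ))
  · exact ⟨_, Or.inr (Or.inl rfl), fun _ => ⟨by norm_num, by norm_num⟩, h1, hfin _ h1⟩
  have h2 : Fintype.card T ≤ 3 * numSat G ε (constA G) := by omega
  exact ⟨_, Or.inr (Or.inr rfl), constA_mem G, h2, hfin _ h2⟩

end Vale.Agent.Results.P330.TrivialThird
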