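import Mathlib
import Vale.Agent.Results.P330.TrivialThird

/-!
# P330: generalized circuits, the regime `δ ≥ 1/2` is trivial

For every generalized circuit there is a rational assignment `y` with values in `[0,1]` that satisfies
exactly all `Constant` gates and all `Not` gates (`y z = 1 - y a`), cycles of `Not` gates included.
The zero assignment satisfies all the other gates.  So for every `ε > 0` one of the two assignments
`0`, `y` satisfies at least half of the gates.
-/

namespace Vale.Agent.Results.P330.TrivialHalf

open Vale.Agent.Results.P330.TrivialThird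

theorem exists_aux {V T : Type} [Fintype T] (G : GCircuit V T) :
    ∀ (n : ℕ) (S : Finset T), S.card = n → (∀ t ∈ S, (G.gate t).kind = Kind.not) →
    ∃ y : V → ℚ, (∀ v, 0 ≤ y v ∧ y v ≤ 1) ∧
      (∀ t α, (G.gate t).kind = Kind.const α → y (G.gate t).z = α) ∧
      (∀ t ∈ S, y (G.gate t).z = 1 - y (G.gate t).a) := by
  classical
  intro n
  induction n with
  | zero =>
    intro S hS _
    refine ⟨constA G, constA_mem G, fun t α h => constA_out G t α h, ?_⟩
    intro t ht
    rw [Finset.card_eq_zero] at hS
    simp [hS] at ht
  | succ n ih =>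
    intro S hS hnot
    by_cases hsink : ∃ t0 ∈ S, ∀ t ∈ S, t ≠ t0 → (G.gate t).a ≠ (G.gate t0).z
    · obtain ⟨t0, ht0, hs⟩ := hsink
      obtain ⟨y, hy01, hyc, hyn⟩ := ih (S.erase t0)
        (by rw [Finset.card_erase_of_mem ht0, hS]; rfl)
        (fun t ht => hnot t (Finset.mem_of_mem_erase ht))
      refine ⟨Function.update y (G.gate t0).z
        (if (G.gate t0).a = (G.gate t0).z then 1 / 2 else 1 - y (G.gate t0).a), ?_, ?_, ?_⟩
      · intro v
        by_cases hv : v = (G.gate t0).z
        · rw [hv, Function.update_self]
          split_ifs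
          · constructor <;> norm_num
          · have := hy01 (G.gate t0).a
            constructor <;> linarith [this.1, this.2]
        · rw [Function.update_of_ne hv]
          exact hy01 v
      · intro t α h
        have hne : (G.gate t).z ≠ (G.gate t0).z := by
          intro he
          have h2 : t = t0 := G.out_inj he
          rw [h2, hnot t0 ht0] at h
          cases h
        rw [Function.update_of_ne hne]
        exact hyc t α h
      · intro t ht
        by_cases htt : t = t0
        · rw [htt, Function.update_self]
          by_cases ha : (G.gate t0).a = (G.gate t0).z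
          · rw [if_pos ha, ha, Function.update_self]
            norm_num
          · rw [if_neg ha, Function.update_of_ne ha]
        · have hne : (G.gate t).z ≠ (G.gate t0).z := by
            intro he
            exact htt (G.out_inj he)
          rw [Function.update_of_ne hne, Function.update_of_ne (hs t ht htt)]
          exact hyn t (Finset.mem_erase.mpr ⟨htt, ht⟩)
    · push Not at hsink
      have hsink' : ∀ t0 : {t // t ∈ S}, ∃ t : {t // t ∈ S},
          (G.gate t.1).a = (G.gate t0.1).z := by
        intro t0
        obtain ⟨t, ht, _, hta⟩ := hsink t0.1 t0.2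
        exact ⟨⟨t, ht⟩, hta⟩
      choose f hf using hsink'
      have hinj : Function.Injective f := by
        intro t0 t1 h01
        have h1 := hf t0
        have h2 := hf t1
        rw [h01] at h1
        have h3 : (G.gate t0.1).z = (G.gate t1.1).z := by rw [← h1, ← h2]
        exact Subtype.ext (G.out_inj h3)
      have hsurj : Function.Surjective f := Finite.injective_iff_surjective.mp hinj
      refine ⟨fun v => if (∃ t ∈ S, (G.gate t).z = v) then 1 / 2 else constA G v, ?_, ?_, ?_⟩
      · intro v
        show 0 ≤ (if (∃ t ∈ S, (G.gate t).z = v) then (1 / 2 : ℚ) else constA G v) ∧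
          (if (∃ t ∈ S, (G.gate t).z = v) then (1 / 2 : ℚ) else constA G v) ≤ 1
        split_ifs
        · constructor <;> norm_num
        · exact constA_mem G v
      · intro t α h
        have hno : ¬ ∃ t' ∈ S, (G.gate t').z = (G.gate t).z := by
          rintro ⟨t', ht', he⟩
          have h2 : t' = t := G.out_inj he
          rw [← h2, hnot t' ht'] at h
          cases h
        show (if (∃ t' ∈ S, (G.gate t').z = (G.gate t).z) then (1 / 2 : ℚ)
          else constA G (G.gate t).z) = α
        rw [if_neg hno]
        exact constA_out G t α h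
      · intro t ht
        obtain ⟨t0, ht0⟩ := hsurj ⟨t, ht⟩
        have h1 := hf t0
        rw [ht0] at h1
        have hz : ∃ t' ∈ S, (G.gate t').z = (G.gate t).z := ⟨t, ht, rfl⟩
        have ha : ∃ t' ∈ S, (G.gate t').z = (G.gate t).a := ⟨t0.1, t0.2, h1.symm⟩
        show (if (∃ t' ∈ S, (G.gate t').z = (G.gate t).z) then (1 / 2 : ℚ)
          else constA G (G.gate t).z) = 1 - (if (∃ t' ∈ S, (G.gate t').z = (G.gate t).a)
          then (1 / 2 : ℚ) else constA G (G.gate t).a)
        rw [if_pos hz, if_pos ha]
        norm_num

/-- For every generalized circuit `G` there is a rational assignment `y` with values in `[0,1]` that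
satisfies exactly every `Constant` gate and every `Not` gate, and for every `ε > 0` one of the two
assignments `0`, `y` `ε`-satisfies at least half of the gates; hence at least `(1 - δ) |T|` gates
whenever `δ ≥ 1/2`. -/
theorem result {V T : Type} [Fintype T] (G : GCircuit V T) :
    ∃ y : V → ℚ, (∀ v, 0 ≤ y v ∧ y v ≤ 1) ∧
      (∀ t α, (G.gate t).kind = Kind.const α → y (G.gate t).z = α) ∧
      (∀ t, (G.gate t).kind = Kind.not → y (G.gate t).z = 1 - y (G.gate t).a) ∧
      ∀ ε : ℝ, 0 < ε → ∃ x : V → ℚ, (x = (fun _ => 0) ∨ x = y) ∧
        Fintype.card T ≤ 2 * numSat G ε x ∧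
        ∀ δ : ℝ, 1 / 2 ≤ δ → (1 - δ) * (Fintype.card T : ℝ) ≤ (numSat G ε x : ℝ) := by
  classical
  obtain ⟨y, hy01, hyc, hyn⟩ := exists_aux G _
    (Finset.univ.filter fun t => (G.gate t).kind = Kind.not) rfl
    (fun t ht => (Finset.mem_filter.mp ht).2)
  have hyn' : ∀ t, (G.gate t).kind = Kind.not → y (G.gate t).z = 1 - y (G.gate t).a :=
    fun t ht => hyn t (Finset.mem_filter.mpr ⟨Finset.mem_univ _, ht⟩)
  refine ⟨y, hy01, hyc, hyn', ?_⟩
  intro ε hε
  have hcover : ∀ t : T, Sat ε (fun _ => (0 : ℚ)) (G.gate t) ∨ Sat ε y (G.gate t) := by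
    intro t
    rcases hk : (G.gate t).kind with α | α | _ | _ | _ | _ | _ | _ | _
    · right
      unfold Sat
      rw [hk]
      simp only
      rw [hyc t α hk]
      simp [hε.le]
    · left
      unfold Sat
      rw [hk]
      simp [hε.le]
    · left
      unfold Sat
      rw [hk]
      simp [hε.le]
    · left
      unfold Sat
      rw [hk]
      simp [hε.le]
    · left
      unfold Sat
      rw [hk]
      simp [hε.le]
    · left
      unfold Sat
      rw [hk]
      simp only
      push_cast
      constructor <;> intro h <;> linarith
    · right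
      unfold Sat
      rw [hk]
      simp only
      rw [hyn' t hk]
      push_cast
      constructor <;> intro h <;> linarith
    · left
      unfold Sat
      rw [hk]
      simp only
      push_cast
      refine ⟨fun h => ?_, fun _ => hε.le⟩
      rcases h with h | h <;> exact h
    · left
      unfold Sat
      rw [hk]
      simp only
      push_cast
      exact ⟨fun h => h.1, fun _ => hε.le⟩
  have hcard : Fintype.card T ≤ numSat G ε (fun _ => (0 : ℚ)) + numSat G ε y := by
    unfold numSat
    simp only [Nat.card_eq_fintype_card, Fintype.card_subtype]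
    calc Fintype.card T = (Finset.univ : Finset T).card := rfl
      _ ≤ ((Finset.univ.filter fun t => Sat ε (fun _ => (0 : ℚ)) (G.gate t)) ∪
          (Finset.univ.filter fun t => Sat ε y (G.gate t))).card := by
            apply Finset.card_le_card
            intro t _
            simp only [Finset.mem_union, Finset.mem_filter, Finset.mem_univ, true_and]
            exact hcover t
      _ ≤ _ := Finset.card_union_le _ _
  have hfin : ∀ x : V → ℚ, Fintype.card T ≤ 2 * numSat G ε x →
      ∀ δ : ℝ, 1 / 2 ≤ δ → (1 - δ) * (Fintype.card T : ℝ) ≤ (numSat G ε x : ℝ) := by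
    intro x hx δ hδ
    have h1 : (Fintype.card T : ℝ) ≤ 2 * (numSat G ε x : ℝ) := by exact_mod_cast hx
    have h2 : (0 : ℝ) ≤ (Fintype.card T : ℝ) := Nat.cast_nonneg _
    nlinarith
  by_cases h0 : Fintype.card T ≤ 2 * numSat G ε (fun _ => (0 : ℚ))
  · exact ⟨_, Or.inl rfl, h0, hfin _ h0⟩
  have h2 : Fintype.card T ≤ 2 * numSat G ε y := by omega
  exact ⟨_, Or.inr rfl, h2, hfin _ h2⟩

end Vale.Agent.Results.P330.TrivialHalf
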